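import Mathlib

namespace Vale.Agent.Lib.P335.helper19

open Finset

section Abstract

variable {V : Type*} [AddCommGroup V] [Module ℝ V]
variable {ι τ : Type*}

/-- quadratic form of a sum of operators -/
theorem form_sum_sum (B : V →ₗ[ℝ] V →ₗ[ℝ] ℝ) (P : ι → V →ₗ[ℝ] V) (s : Finset ι) (x : V) :
    B ((∑ p ∈ s, P p) x) ((∑ p ∈ s, P p) x) = ∑ p ∈ s, ∑ q ∈ s, B (P p x) (P q x) := by
  simp only [LinearMap.sum_apply, map_sum]
  rw [Finset.sum_comm]

/-- for symmetric idempotents the linear term is the diagonal of the quadratic form -/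
theorem form_sum_diag (B : V →ₗ[ℝ] V →ₗ[ℝ] ℝ) (P : ι → V →ₗ[ℝ] V)
    (hsym : ∀ p x y, B (P p x) y = B x (P p y)) (hidem : ∀ p x, P p (P p x) = P p x)
    (s : Finset ι) (x : V) :
    B ((∑ p ∈ s, P p) x) x = ∑ p ∈ s, B (P p x) (P p x) := by
  simp only [LinearMap.sum_apply, map_sum]
  apply Finset.sum_congr rfl
  intro p _
  rw [hsym p x (P p x), hidem, ← hsym p x x]

/-- commuting symmetric idempotents have a nonnegative correlation -/
theorem corr_nonneg_of_comm (B : V →ₗ[ℝ] V →ₗ[ℝ] ℝ) (hpos : ∀ y, 0 ≤ B y y)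
    (P : ι → V →ₗ[ℝ] V)
    (hsym : ∀ p x y, B (P p x) y = B x (P p y)) (hidem : ∀ p x, P p (P p x) = P p x)
    (p q : ι) (h : ∀ x, P p (P q x) = P q (P p x)) (x : V) :
    0 ≤ B (P p x) (P q x) := by
  have e : B (P p x) (P q x) = B (P p (P q x)) (P p (P q x)) := by
    rw [hsym p (P q x) (P p (P q x)), hidem, h x, hsym q x (P q (P p x)), hidem, ← h x,
      ← hsym p x (P q x)]
  rw [e]
  exact hpos _

/-- **Abstract Knabe-type lemma** (bilinear form version). `P p` are idempotents, symmetric for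
the nonnegative form `B`; `E t` are the index sets of the local sums (the triangles). If two
distinct indices lie in at most one common triangle, indices in no common triangle commute, and
every local sum `H_t` satisfies `H_t ≤ H_t ^ 2`, then the global sum `H` satisfies `H ≤ H ^ 2`. -/
theorem knabe_form [Fintype ι] [DecidableEq ι] [Fintype τ]
    (B : V →ₗ[ℝ] V →ₗ[ℝ] ℝ) (hpos : ∀ y, 0 ≤ B y y)
    (P : ι → V →ₗ[ℝ] V) (E : τ → Finset ι)
    (hsym : ∀ p x y, B (P p x) y = B x (P p y))
    (hidem : ∀ p x, P p (P p x) = P p x)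
    (hN : ∀ p q, p ≠ q → (univ.filter (fun t => p ∈ E t ∧ q ∈ E t)).card ≤ 1)
    (hcomm : ∀ p q, p ≠ q → (∀ t, ¬ (p ∈ E t ∧ q ∈ E t)) → ∀ x, P p (P q x) = P q (P p x))
    (htri : ∀ t x, B ((∑ p ∈ E t, P p) x) x ≤ B ((∑ p ∈ E t, P p) x) ((∑ p ∈ E t, P p) x))
    (x : V) :
    B ((∑ p, P p) x) x ≤ B ((∑ p, P p) x) ((∑ p, P p) x) := by
  classical
  rw [form_sum_sum, form_sum_diag B P hsym hidem]
  -- off-diagonal sums
  have hoff : ∀ s : Finset ι, ∑ p ∈ s, ∑ q ∈ s, B (P p x) (P q x)
      = ∑ p ∈ s, B (P p x) (P p x)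
        + ∑ p ∈ s, ∑ q ∈ s, (if p ≠ q then B (P p x) (P q x) else 0) := by
    intro s
    rw [← Finset.sum_add_distrib]
    apply Finset.sum_congr rfl
    intro p hp
    have h1 : ∑ q ∈ s, B (P p x) (P q x)
        = ∑ q ∈ s, ((if p = q then B (P p x) (P q x) else 0)
            + (if p ≠ q then B (P p x) (P q x) else 0)) := by
      apply Finset.sum_congr rfl
      intro q _
      by_cases hpq : p = q
      · simp [hpq]
      · simp [hpq]
    rw [h1, Finset.sum_add_distrib, Finset.sum_ite_eq s p]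
    simp [hp]
  rw [hoff univ]
  -- local inequalities
  have hloc : ∀ t, 0 ≤ ∑ p ∈ E t, ∑ q ∈ E t, (if p ≠ q then B (P p x) (P q x) else 0) := by
    intro t
    have h := htri t x
    rw [form_sum_sum, form_sum_diag B P hsym hidem, hoff (E t)] at h
    linarith
  have hloc' : ∀ t, ∑ p ∈ E t, ∑ q ∈ E t, (if p ≠ q then B (P p x) (P q x) else 0)
      = ∑ p, ∑ q, (if p ∈ E t ∧ q ∈ E t ∧ p ≠ q then B (P p x) (P q x) else 0) := by
    intro t
    rw [← Finset.sum_filter_add_sum_filter_not univ (fun p => p ∈ E t)]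
    have hz : ∑ p ∈ univ.filter (fun p => ¬ p ∈ E t),
        ∑ q, (if p ∈ E t ∧ q ∈ E t ∧ p ≠ q then B (P p x) (P q x) else 0) = 0 := by
      apply Finset.sum_eq_zero
      intro p hp
      rw [mem_filter] at hp
      apply Finset.sum_eq_zero
      intro q _
      simp [hp.2]
    rw [hz, add_zero]
    have hf : univ.filter (fun p => p ∈ E t) = E t := by
      ext p
      simp
    rw [hf]
    apply Finset.sum_congr rfl
    intro p hp
    rw [← Finset.sum_filter_add_sum_filter_not univ (fun q => q ∈ E t)]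
    have hz2 : ∑ q ∈ univ.filter (fun q => ¬ q ∈ E t),
        (if p ∈ E t ∧ q ∈ E t ∧ p ≠ q then B (P p x) (P q x) else 0) = 0 := by
      apply Finset.sum_eq_zero
      intro q hq
      rw [mem_filter] at hq
      simp [hq.2]
    rw [hz2, add_zero, hf]
    apply Finset.sum_congr rfl
    intro q hq
    simp [hp, hq]
  have htot : 0 ≤ ∑ t, ∑ p, ∑ q,
      (if p ∈ E t ∧ q ∈ E t ∧ p ≠ q then B (P p x) (P q x) else 0) := by
    apply Finset.sum_nonneg
    intro t _
    rw [← hloc' t]
    exact hloc t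
  have hswap : ∑ t, ∑ p, ∑ q, (if p ∈ E t ∧ q ∈ E t ∧ p ≠ q then B (P p x) (P q x) else 0)
      = ∑ p, ∑ q, ∑ t, (if p ∈ E t ∧ q ∈ E t ∧ p ≠ q then B (P p x) (P q x) else 0) := by
    rw [Finset.sum_comm]
    apply Finset.sum_congr rfl
    intro p _
    rw [Finset.sum_comm]
  have hterm : ∀ p q, ∑ t, (if p ∈ E t ∧ q ∈ E t ∧ p ≠ q then B (P p x) (P q x) else 0)
      ≤ (if p ≠ q then B (P p x) (P q x) else 0) := by
    intro p q
    by_cases hpq : p = q
    · simp [hpq]
    · rw [if_pos hpq]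
      have h1 : ∑ t, (if p ∈ E t ∧ q ∈ E t ∧ p ≠ q then B (P p x) (P q x) else 0)
          = ((univ.filter (fun t => p ∈ E t ∧ q ∈ E t)).card : ℝ) * B (P p x) (P q x) := by
        rw [← Finset.sum_filter]
        rw [Finset.sum_const, nsmul_eq_mul]
        congr 3
        ext t
        simp [hpq]
      rw [h1]
      have hcard := hN p q hpq
      rcases Nat.eq_zero_or_pos (univ.filter (fun t => p ∈ E t ∧ q ∈ E t)).card with h0 | h0
      · rw [h0]
        simp only [Nat.cast_zero, zero_mul]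
        apply corr_nonneg_of_comm B hpos P hsym hidem p q
        apply hcomm p q hpq
        intro t ht
        rw [Finset.card_eq_zero] at h0
        have : t ∈ univ.filter (fun t => p ∈ E t ∧ q ∈ E t) := by
          rw [mem_filter]
          exact ⟨mem_univ _, ht⟩
        rw [h0] at this
        exact absurd this (Finset.notMem_empty _)
      · have h1' : (univ.filter (fun t => p ∈ E t ∧ q ∈ E t)).card = 1 := by omega
        rw [h1']
        simp
  have hfinal : ∑ p, ∑ q, ∑ t, (if p ∈ E t ∧ q ∈ E t ∧ p ≠ q then B (P p x) (P q x) else 0)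
      ≤ ∑ p, ∑ q, (if p ≠ q then B (P p x) (P q x) else 0) := by
    apply Finset.sum_le_sum
    intro p _
    apply Finset.sum_le_sum
    intro q _
    exact hterm p q
  linarith

/-- a sum of symmetric operators is symmetric -/
theorem form_sum_symm (B : V →ₗ[ℝ] V →ₗ[ℝ] ℝ) (P : ι → V →ₗ[ℝ] V)
    (hsym : ∀ p x y, B (P p x) y = B x (P p y)) (s : Finset ι) (x y : V) :
    B ((∑ p ∈ s, P p) x) y = B x ((∑ p ∈ s, P p) y) := by
  simp only [LinearMap.sum_apply, map_sum]
  exact Finset.sum_congr rfl (fun p _ => hsym p x y)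

/-- **Gap from `H ≤ H ^ 2`** (bilinear form version): if `H`, a sum of symmetric idempotents for
a nonnegative form, satisfies `H ≤ H ^ 2`, then `1 ≤ H` on the range of `H`. -/
theorem knabe_gap_form [Fintype ι] (B : V →ₗ[ℝ] V →ₗ[ℝ] ℝ) (hpos : ∀ y, 0 ≤ B y y)
    (P : ι → V →ₗ[ℝ] V)
    (hsym : ∀ p x y, B (P p x) y = B x (P p y))
    (hidem : ∀ p x, P p (P p x) = P p x)
    (hsq : ∀ x, B ((∑ p, P p) x) x ≤ B ((∑ p, P p) x) ((∑ p, P p) x)) (y : V) :
    B ((∑ p, P p) y) ((∑ p, P p) y) ≤ B ((∑ p, P p) ((∑ p, P p) y)) ((∑ p, P p) y) := by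
  set H : V →ₗ[ℝ] V := ∑ p, P p with hH
  have hHsym : ∀ x y, B (H x) y = B x (H y) := form_sum_symm B P hsym univ
  have hHpos : ∀ x, 0 ≤ B (H x) x := by
    intro x
    rw [hH, form_sum_diag B P hsym hidem]
    exact Finset.sum_nonneg (fun p _ => hpos _)
  have h1 : B (H y) y ≤ B (H y) (H y) := hsq y
  have h0 : 0 ≤ B (H y) y := hHpos y
  have h3 : 0 ≤ B (H (H y)) (H y) := hHpos (H y)
  have h2 : 0 ≤ B (H y) (H y) := hpos _
  -- Cauchy-Schwarz for the form `(u, v) ↦ B (H u) v`
  have hcs := LinearMap.BilinForm.apply_mul_apply_le_of_forall_zero_le (B.comp H) hHpos y (H y)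
  simp only [LinearMap.comp_apply] at hcs
  rw [hHsym (H y) y] at hcs
  by_contra hcon
  rw [not_le] at hcon
  nlinarith

end Abstract

section Inner

variable {V : Type*} [NormedAddCommGroup V] [InnerProductSpace ℝ V]
variable {ι τ : Type*}

/-- **Abstract Knabe-type lemma** in a real inner product space: symmetric idempotent operators
`P p`, triangles `E t`; two distinct indices lie in at most one common triangle, indices in no
common triangle commute, every local sum satisfies `⟪H_t x, x⟫ ≤ ‖H_t x‖ ^ 2`. Then the global sum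
`H` satisfies `⟪H x, x⟫ ≤ ‖H x‖ ^ 2`. -/
theorem knabe_inner [Fintype ι] [DecidableEq ι] [Fintype τ]
    (P : ι → V →ₗ[ℝ] V) (E : τ → Finset ι)
    (hsym : ∀ p, (P p).IsSymmetric) (hidem : ∀ p, IsIdempotentElem (P p))
    (hN : ∀ p q, p ≠ q → (univ.filter (fun t => p ∈ E t ∧ q ∈ E t)).card ≤ 1)
    (hcomm : ∀ p q, p ≠ q → (∀ t, ¬ (p ∈ E t ∧ q ∈ E t)) → Commute (P p) (P q))
    (htri : ∀ t x, inner ℝ ((∑ p ∈ E t, P p) x) x ≤ ‖(∑ p ∈ E t, P p) x‖ ^ 2) (x : V) :
    inner ℝ ((∑ p, P p) x) x ≤ ‖(∑ p, P p) x‖ ^ 2 := by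
  have h := knabe_form (innerₗ V) (fun y => by
      rw [innerₗ_apply_apply]
      exact real_inner_self_nonneg) P E
    (fun p x y => by
      rw [innerₗ_apply_apply, innerₗ_apply_apply]
      exact hsym p x y)
    (fun p x => by
      have := LinearMap.congr_fun (hidem p).eq x
      simpa using this) hN
    (fun p q hpq ht x => by
      have := LinearMap.congr_fun (hcomm p q hpq ht).eq x
      simpa using this)
    (fun t x => by
      rw [innerₗ_apply_apply, innerₗ_apply_apply, real_inner_self_eq_norm_sq]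
      exact htri t x) x
  rw [innerₗ_apply_apply, innerₗ_apply_apply, real_inner_self_eq_norm_sq] at h
  exact h

/-- **Gap one**: if `H`, a sum of symmetric idempotents on a finite-dimensional real inner product
space, satisfies `⟪H x, x⟫ ≤ ‖H x‖ ^ 2` for all `x`, then `‖x‖ ^ 2 ≤ ⟪H x, x⟫` for every `x`
orthogonal to the kernel of `H`. -/
theorem knabe_gap [Fintype ι] [FiniteDimensional ℝ V] (P : ι → V →ₗ[ℝ] V)
    (hsym : ∀ p, (P p).IsSymmetric) (hidem : ∀ p, IsIdempotentElem (P p))
    (hsq : ∀ x, inner ℝ ((∑ p, P p) x) x ≤ ‖(∑ p, P p) x‖ ^ 2) (x : V)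
    (hx : x ∈ (LinearMap.ker (∑ p, P p))ᗮ) :
    ‖x‖ ^ 2 ≤ inner ℝ ((∑ p, P p) x) x := by
  have hHsym : (∑ p, P p).IsSymmetric := by
    intro u v
    have := form_sum_symm (innerₗ V) P (fun p x y => by
      rw [innerₗ_apply_apply, innerₗ_apply_apply]
      exact hsym p x y) univ u v
    rw [innerₗ_apply_apply, innerₗ_apply_apply] at this
    exact this
  have hrange : (LinearMap.ker (∑ p, P p))ᗮ = LinearMap.range (∑ p, P p) := by
    rw [← hHsym.orthogonal_range, Submodule.orthogonal_orthogonal]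
  rw [hrange] at hx
  obtain ⟨y, rfl⟩ := hx
  have h := knabe_gap_form (innerₗ V) (fun y => by
      rw [innerₗ_apply_apply]
      exact real_inner_self_nonneg) P
    (fun p x y => by
      rw [innerₗ_apply_apply, innerₗ_apply_apply]
      exact hsym p x y)
    (fun p x => by
      have := LinearMap.congr_fun (hidem p).eq x
      simpa using this)
    (fun x => by
      rw [innerₗ_apply_apply, innerₗ_apply_apply, real_inner_self_eq_norm_sq]
      exact hsq x) y
  rw [innerₗ_apply_apply, innerₗ_apply_apply, real_inner_self_eq_norm_sq] at h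
  exact h

end Inner

section Pairs

variable {V : Type*} [NormedAddCommGroup V] [InnerProductSpace ℝ V]
variable {α : Type*} [Fintype α] [DecidableEq α]

/-- **Knabe lemma for pair projections**: symmetric idempotents `P p` indexed by the two-element
subsets `p` of `α` such that disjoint pairs commute and, for every three-element subset `t`, the
sum `H_t` over the three pairs inside `t` satisfies `⟪H_t x, x⟫ ≤ ‖H_t x‖ ^ 2`. Then the sum `H`
over all pairs satisfies `⟪H x, x⟫ ≤ ‖H x‖ ^ 2`. -/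
theorem knabe_pairs (P : {s : Finset α // s.card = 2} → V →ₗ[ℝ] V)
    (hsym : ∀ p, (P p).IsSymmetric) (hidem : ∀ p, IsIdempotentElem (P p))
    (hcomm : ∀ p q : {s : Finset α // s.card = 2}, Disjoint p.1 q.1 → Commute (P p) (P q))
    (htri : ∀ (t : {t : Finset α // t.card = 3}) (x : V),
      inner ℝ ((∑ p ∈ univ.filter (fun p : {s : Finset α // s.card = 2} => p.1 ⊆ t.1), P p) x) x
        ≤ ‖(∑ p ∈ univ.filter (fun p : {s : Finset α // s.card = 2} => p.1 ⊆ t.1), P p) x‖ ^ 2)
    (x : V) :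
    inner ℝ ((∑ p, P p) x) x ≤ ‖(∑ p, P p) x‖ ^ 2 := by
  classical
  have hunion : ∀ p q : {s : Finset α // s.card = 2}, p ≠ q → 3 ≤ (p.1 ∪ q.1).card := by
    intro p q hpq
    by_contra hcon
    have h2 : (p.1 ∪ q.1).card ≤ 2 := by omega
    have hp : p.1 = p.1 ∪ q.1 :=
      Finset.eq_of_subset_of_card_le Finset.subset_union_left (by rw [p.2]; exact h2)
    have hq : q.1 = p.1 ∪ q.1 :=
      Finset.eq_of_subset_of_card_le Finset.subset_union_right (by rw [q.2]; exact h2)
    exact hpq (Subtype.ext (hp.trans hq.symm))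
  apply knabe_inner P
    (fun t : {t : Finset α // t.card = 3} =>
      univ.filter (fun p : {s : Finset α // s.card = 2} => p.1 ⊆ t.1)) hsym hidem
  · intro p q hpq
    rw [Finset.card_le_one]
    intro t ht t' ht'
    rw [mem_filter, mem_filter, mem_filter] at ht ht'
    have h1 : p.1 ∪ q.1 = t.1 :=
      Finset.eq_of_subset_of_card_le (Finset.union_subset ht.2.1.2 ht.2.2.2)
        (by rw [t.2]; exact hunion p q hpq)
    have h2 : p.1 ∪ q.1 = t'.1 :=
      Finset.eq_of_subset_of_card_le (Finset.union_subset ht'.2.1.2 ht'.2.2.2)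
        (by rw [t'.2]; exact hunion p q hpq)
    exact Subtype.ext (h1.symm.trans h2)
  · intro p q hpq hno
    apply hcomm p q
    rw [Finset.disjoint_iff_inter_eq_empty]
    by_contra hne
    have hpos : 1 ≤ (p.1 ∩ q.1).card := by
      rw [Nat.succ_le_iff, Finset.card_pos]
      exact Finset.nonempty_iff_ne_empty.2 hne
    have hcard := Finset.card_union_add_card_inter p.1 q.1
    rw [p.2, q.2] at hcard
    have h3 : (p.1 ∪ q.1).card = 3 := by
      have := hunion p q hpq
      omega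
    apply hno ⟨p.1 ∪ q.1, h3⟩
    rw [mem_filter, mem_filter]
    exact ⟨⟨mem_univ _, Finset.subset_union_left⟩, ⟨mem_univ _, Finset.subset_union_right⟩⟩
  · exact htri

end Pairs

end Vale.Agent.Lib.P335.helper19
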