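import Vale.Agent.Lib.P335.helper19.Knabe

/-!
# Knabe-type lemma without commutation (graph case of P335)

Variant of `knabe_form`: instead of assuming that indices in no common triangle commute, one
assumes a lower bound `c * ∑ p, B (P p x) (P p x) ≤ (sum of the products over ordered pairs of
distinct indices in no common triangle)`.  Conclusion: `(1 + c) * H ≤ H ^ 2` as forms, and hence
a gap `1 + c` for `H` on its range.
-/

namespace Vale.Agent.Lib.P335.helper19

open Finset

section Abstract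

variable {V : Type*} [AddCommGroup V] [Module ℝ V]
variable {ι τ : Type*}

/-- **Abstract Knabe-type lemma, parallel version** (bilinear form version). `P p` are
idempotents, symmetric for the form `B`; `E t` are the index sets of the local sums (the
triangles). If two distinct indices lie in at most one common triangle, every local sum `H_t`
satisfies `H_t ≤ H_t ^ 2` at `x`, and the sum of the products `B (P p x) (P q x)` over the ordered
pairs of distinct indices in no common triangle is at least `c * ∑ p, B (P p x) (P p x)`,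
then `(1 + c) * B (H x) x ≤ B (H x) (H x)`. -/
theorem knabe_form_par [Fintype ι] [DecidableEq ι] [Fintype τ]
    (B : V →ₗ[ℝ] V →ₗ[ℝ] ℝ)
    (P : ι → V →ₗ[ℝ] V) (E : τ → Finset ι)
    (hsym : ∀ p x y, B (P p x) y = B x (P p y))
    (hidem : ∀ p x, P p (P p x) = P p x)
    (hN : ∀ p q, p ≠ q → (univ.filter (fun t => p ∈ E t ∧ q ∈ E t)).card ≤ 1)
    (c : ℝ) (x : V)
    (htri : ∀ t, B ((∑ p ∈ E t, P p) x) x ≤ B ((∑ p ∈ E t, P p) x) ((∑ p ∈ E t, P p) x))
    (hpar : c * ∑ p, B (P p x) (P p x) ≤
      ∑ p, ∑ q, (if p ≠ q ∧ ∀ t, ¬ (p ∈ E t ∧ q ∈ E t) then B (P p x) (P q x) else 0)) :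
    (1 + c) * B ((∑ p, P p) x) x ≤ B ((∑ p, P p) x) ((∑ p, P p) x) := by
  classical
  rw [form_sum_sum, form_sum_diag B P hsym hidem]
  -- off-diagonal sums
  have hoff : ∀ s : Finset ι, ∑ p ∈ s, ∑ q ∈ s, B (P p x) (P q x)
      = ∑ p ∈ s, B (P p x) (P p x)
        + ∑ p ∈ s, ∑ q ∈ s, (if p ≠ q then B (P p x) (P q x) else 0) := by
    intro s
    rw [← Finset.sum_add_distrib]
    apply Finset.sum_congr rfl
    intro p hp
    have h1 : ∑ q ∈ s, B (P p x) (P q x)
        = ∑ q ∈ s, ((if p = q then B (P p x) (P q x) else 0)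
            + (if p ≠ q then B (P p x) (P q x) else 0)) := by
      apply Finset.sum_congr rfl
      intro q _
      by_cases hpq : p = q
      · simp [hpq]
      · simp [hpq]
    rw [h1, Finset.sum_add_distrib, Finset.sum_ite_eq s p]
    simp [hp]
  rw [hoff univ]
  -- local inequalities
  have hloc : ∀ t, 0 ≤ ∑ p ∈ E t, ∑ q ∈ E t, (if p ≠ q then B (P p x) (P q x) else 0) := by
    intro t
    have h := htri t
    rw [form_sum_sum, form_sum_diag B P hsym hidem, hoff (E t)] at h
    linarith
  have hloc' : ∀ t, ∑ p ∈ E t, ∑ q ∈ E t, (if p ≠ q then B (P p x) (P q x) else 0)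
      = ∑ p, ∑ q, (if p ∈ E t ∧ q ∈ E t ∧ p ≠ q then B (P p x) (P q x) else 0) := by
    intro t
    rw [← Finset.sum_filter_add_sum_filter_not univ (fun p => p ∈ E t)]
    have hz : ∑ p ∈ univ.filter (fun p => ¬ p ∈ E t),
        ∑ q, (if p ∈ E t ∧ q ∈ E t ∧ p ≠ q then B (P p x) (P q x) else 0) = 0 := by
      apply Finset.sum_eq_zero
      intro p hp
      rw [mem_filter] at hp
      apply Finset.sum_eq_zero
      intro q _
      simp [hp.2]
    rw [hz, add_zero]
    have hf : univ.filter (fun p => p ∈ E t) = E t := by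
      ext p
      simp
    rw [hf]
    apply Finset.sum_congr rfl
    intro p hp
    rw [← Finset.sum_filter_add_sum_filter_not univ (fun q => q ∈ E t)]
    have hz2 : ∑ q ∈ univ.filter (fun q => ¬ q ∈ E t),
        (if p ∈ E t ∧ q ∈ E t ∧ p ≠ q then B (P p x) (P q x) else 0) = 0 := by
      apply Finset.sum_eq_zero
      intro q hq
      rw [mem_filter] at hq
      simp [hq.2]
    rw [hz2, add_zero, hf]
    apply Finset.sum_congr rfl
    intro q hq
    simp [hp, hq]
  have htot : 0 ≤ ∑ t, ∑ p, ∑ q,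
      (if p ∈ E t ∧ q ∈ E t ∧ p ≠ q then B (P p x) (P q x) else 0) := by
    apply Finset.sum_nonneg
    intro t _
    rw [← hloc' t]
    exact hloc t
  have hswap : ∑ t, ∑ p, ∑ q, (if p ∈ E t ∧ q ∈ E t ∧ p ≠ q then B (P p x) (P q x) else 0)
      = ∑ p, ∑ q, ∑ t, (if p ∈ E t ∧ q ∈ E t ∧ p ≠ q then B (P p x) (P q x) else 0) := by
    rw [Finset.sum_comm]
    apply Finset.sum_congr rfl
    intro p _
    rw [Finset.sum_comm]
  have hterm : ∀ p q, (if p ≠ q then B (P p x) (P q x) else 0)
      = ∑ t, (if p ∈ E t ∧ q ∈ E t ∧ p ≠ q then B (P p x) (P q x) else 0)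
        + (if p ≠ q ∧ ∀ t, ¬ (p ∈ E t ∧ q ∈ E t) then B (P p x) (P q x) else 0) := by
    intro p q
    by_cases hpq : p = q
    · simp [hpq]
    · rw [if_pos hpq]
      have h1 : ∑ t, (if p ∈ E t ∧ q ∈ E t ∧ p ≠ q then B (P p x) (P q x) else 0)
          = ((univ.filter (fun t => p ∈ E t ∧ q ∈ E t)).card : ℝ) * B (P p x) (P q x) := by
        rw [← Finset.sum_filter]
        rw [Finset.sum_const, nsmul_eq_mul]
        congr 3
        ext t
        simp [hpq]
      rw [h1]
      have hcard := hN p q hpq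
      rcases Nat.eq_zero_or_pos (univ.filter (fun t => p ∈ E t ∧ q ∈ E t)).card with h0 | h0
      · rw [h0]
        have hno : ∀ t, ¬ (p ∈ E t ∧ q ∈ E t) := by
          intro t ht
          rw [Finset.card_eq_zero] at h0
          have : t ∈ univ.filter (fun t => p ∈ E t ∧ q ∈ E t) := by
            rw [mem_filter]
            exact ⟨mem_univ _, ht⟩
          rw [h0] at this
          exact absurd this (Finset.notMem_empty _)
        rw [if_pos ⟨hpq, hno⟩]
        simp
      · have h1' : (univ.filter (fun t => p ∈ E t ∧ q ∈ E t)).card = 1 := by omega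
        rw [h1']
        have hex : ¬ (p ≠ q ∧ ∀ t, ¬ (p ∈ E t ∧ q ∈ E t)) := by
          rintro ⟨-, hno⟩
          obtain ⟨t, ht⟩ := Finset.card_pos.1 h0
          rw [mem_filter] at ht
          exact hno t ht.2
        rw [if_neg hex]
        simp
  have hfinal : ∑ p, ∑ q, (if p ≠ q then B (P p x) (P q x) else 0)
      = ∑ p, ∑ q, ∑ t, (if p ∈ E t ∧ q ∈ E t ∧ p ≠ q then B (P p x) (P q x) else 0)
        + ∑ p, ∑ q, (if p ≠ q ∧ ∀ t, ¬ (p ∈ E t ∧ q ∈ E t) then B (P p x) (P q x) else 0) := by
    rw [← Finset.sum_add_distrib]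
    apply Finset.sum_congr rfl
    intro p _
    rw [← Finset.sum_add_distrib]
    apply Finset.sum_congr rfl
    intro q _
    exact hterm p q
  linarith

/-- **Gap from `a * H ≤ H ^ 2`** (bilinear form version): if `H`, a sum of symmetric idempotents
for a nonnegative form, satisfies `a * H ≤ H ^ 2` with `0 < a`, then `a ≤ H` on the range of
`H`. -/
theorem knabe_gap_form_par [Fintype ι] (B : V →ₗ[ℝ] V →ₗ[ℝ] ℝ) (hpos : ∀ y, 0 ≤ B y y)
    (P : ι → V →ₗ[ℝ] V)
    (hsym : ∀ p x y, B (P p x) y = B x (P p y))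
    (hidem : ∀ p x, P p (P p x) = P p x) (a : ℝ) (ha : 0 < a)
    (hsq : ∀ x, a * B ((∑ p, P p) x) x ≤ B ((∑ p, P p) x) ((∑ p, P p) x)) (y : V) :
    a * B ((∑ p, P p) y) ((∑ p, P p) y) ≤ B ((∑ p, P p) ((∑ p, P p) y)) ((∑ p, P p) y) := by
  set H : V →ₗ[ℝ] V := ∑ p, P p with hH
  have hHsym : ∀ x y, B (H x) y = B x (H y) := form_sum_symm B P hsym univ
  have hHpos : ∀ x, 0 ≤ B (H x) x := by
    intro x
    rw [hH, form_sum_diag B P hsym hidem]
    exact Finset.sum_nonneg (fun p _ => hpos _)
  have h1 : a * B (H y) y ≤ B (H y) (H y) := hsq y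
  have h0 : 0 ≤ B (H y) y := hHpos y
  have h3 : 0 ≤ B (H (H y)) (H y) := hHpos (H y)
  have h2 : 0 ≤ B (H y) (H y) := hpos _
  -- Cauchy-Schwarz for the form `(u, v) ↦ B (H u) v`
  have hcs := LinearMap.BilinForm.apply_mul_apply_le_of_forall_zero_le (B.comp H) hHpos y (H y)
  simp only [LinearMap.comp_apply] at hcs
  rw [hHsym (H y) y] at hcs
  by_contra hcon
  rw [not_le] at hcon
  -- N := B (H y) (H y), u := B (H y) y, w := B (H (H y)) (H y):  N * N ≤ u * w, a * u ≤ N, w < a * N
  have h4 : a * (B (H y) (H y) * B (H y) (H y)) ≤ B (H y) (H y) * B (H (H y)) (H y) := by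
    calc a * (B (H y) (H y) * B (H y) (H y))
        ≤ a * (B (H y) y * B (H (H y)) (H y)) := mul_le_mul_of_nonneg_left hcs ha.le
      _ = (a * B (H y) y) * B (H (H y)) (H y) := by ring
      _ ≤ B (H y) (H y) * B (H (H y)) (H y) := mul_le_mul_of_nonneg_right h1 h3
  have h5 : 0 < B (H y) (H y) := by
    rcases h2.lt_or_eq with h | h
    · exact h
    · rw [← h] at hcon
      simp only [mul_zero] at hcon
      linarith
  have h6 : B (H y) (H y) * B (H (H y)) (H y) < B (H y) (H y) * (a * B (H y) (H y)) :=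
    mul_lt_mul_of_pos_left hcon h5
  nlinarith

end Abstract

section Inner

variable {V : Type*} [NormedAddCommGroup V] [InnerProductSpace ℝ V]
variable {ι τ : Type*}

/-- **Abstract Knabe-type lemma, parallel version**, in a real inner product space. -/
theorem knabe_inner_par [Fintype ι] [DecidableEq ι] [Fintype τ]
    (P : ι → V →ₗ[ℝ] V) (E : τ → Finset ι)
    (hsym : ∀ p, (P p).IsSymmetric) (hidem : ∀ p, IsIdempotentElem (P p))
    (hN : ∀ p q, p ≠ q → (univ.filter (fun t => p ∈ E t ∧ q ∈ E t)).card ≤ 1)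
    (c : ℝ) (x : V)
    (htri : ∀ t, inner ℝ ((∑ p ∈ E t, P p) x) x ≤ ‖(∑ p ∈ E t, P p) x‖ ^ 2)
    (hpar : c * ∑ p, ‖P p x‖ ^ 2 ≤
      ∑ p, ∑ q, (if p ≠ q ∧ ∀ t, ¬ (p ∈ E t ∧ q ∈ E t) then inner ℝ (P p x) (P q x) else 0)) :
    (1 + c) * inner ℝ ((∑ p, P p) x) x ≤ ‖(∑ p, P p) x‖ ^ 2 := by
  have h := knabe_form_par (innerₗ V) P E
    (fun p x y => by
      rw [innerₗ_apply_apply, innerₗ_apply_apply]
      exact hsym p x y)
    (fun p x => by
      have := LinearMap.congr_fun (hidem p).eq x
      simpa using this) hN c x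
    (fun t => by
      rw [innerₗ_apply_apply, innerₗ_apply_apply, real_inner_self_eq_norm_sq]
      exact htri t)
    (by
      simp only [innerₗ_apply_apply, real_inner_self_eq_norm_sq]
      exact hpar)
  rw [innerₗ_apply_apply, innerₗ_apply_apply, real_inner_self_eq_norm_sq] at h
  exact h

/-- **Gap `a`**: if `H`, a sum of symmetric idempotents on a finite-dimensional real inner product
space, satisfies `a * ⟪H x, x⟫ ≤ ‖H x‖ ^ 2` for all `x` (`0 < a`), then `a * ‖x‖ ^ 2 ≤ ⟪H x, x⟫`
for every `x` orthogonal to the kernel of `H`. -/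
theorem knabe_gap_par [Fintype ι] [FiniteDimensional ℝ V] (P : ι → V →ₗ[ℝ] V)
    (hsym : ∀ p, (P p).IsSymmetric) (hidem : ∀ p, IsIdempotentElem (P p)) (a : ℝ) (ha : 0 < a)
    (hsq : ∀ x, a * inner ℝ ((∑ p, P p) x) x ≤ ‖(∑ p, P p) x‖ ^ 2) (x : V)
    (hx : x ∈ (LinearMap.ker (∑ p, P p))ᗮ) :
    a * ‖x‖ ^ 2 ≤ inner ℝ ((∑ p, P p) x) x := by
  have hHsym : (∑ p, P p).IsSymmetric := by
    intro u v
    have := form_sum_symm (innerₗ V) P (fun p x y => by
      rw [innerₗ_apply_apply, innerₗ_apply_apply]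
      exact hsym p x y) univ u v
    rw [innerₗ_apply_apply, innerₗ_apply_apply] at this
    exact this
  have hrange : (LinearMap.ker (∑ p, P p))ᗮ = LinearMap.range (∑ p, P p) := by
    rw [← hHsym.orthogonal_range, Submodule.orthogonal_orthogonal]
  rw [hrange] at hx
  obtain ⟨y, rfl⟩ := hx
  have h := knabe_gap_form_par (innerₗ V) (fun y => by
      rw [innerₗ_apply_apply]
      exact real_inner_self_nonneg) P
    (fun p x y => by
      rw [innerₗ_apply_apply, innerₗ_apply_apply]
      exact hsym p x y)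
    (fun p x => by
      have := LinearMap.congr_fun (hidem p).eq x
      simpa using this) a ha
    (fun x => by
      rw [innerₗ_apply_apply, innerₗ_apply_apply, real_inner_self_eq_norm_sq]
      exact hsq x) y
  rw [innerₗ_apply_apply, innerₗ_apply_apply, real_inner_self_eq_norm_sq] at h
  exact h

end Inner

section Pairs

variable {V : Type*} [NormedAddCommGroup V] [InnerProductSpace ℝ V]
variable {α : Type*} [Fintype α] [DecidableEq α]

/-- **Knabe lemma for pair projections, parallel version**: symmetric idempotents `P p` indexed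
by the two-element subsets `p` of `α` such that, at the vector `x`, for every three-element
subset `t` the sum `H_t` over the three pairs inside `t` satisfies `⟪H_t x, x⟫ ≤ ‖H_t x‖ ^ 2`, and
the sum of `⟪P p x, P q x⟫` over the ordered pairs of disjoint pairs is at least
`c * ∑ p, ‖P p x‖ ^ 2`. Then the sum `H` over all pairs satisfies
`(1 + c) * ⟪H x, x⟫ ≤ ‖H x‖ ^ 2`. -/
theorem knabe_pairs_par (P : {s : Finset α // s.card = 2} → V →ₗ[ℝ] V)
    (hsym : ∀ p, (P p).IsSymmetric) (hidem : ∀ p, IsIdempotentElem (P p))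
    (c : ℝ) (x : V)
    (htri : ∀ (t : {t : Finset α // t.card = 3}),
      inner ℝ ((∑ p ∈ univ.filter (fun p : {s : Finset α // s.card = 2} => p.1 ⊆ t.1), P p) x) x
        ≤ ‖(∑ p ∈ univ.filter (fun p : {s : Finset α // s.card = 2} => p.1 ⊆ t.1), P p) x‖ ^ 2)
    (hpar : c * ∑ p, ‖P p x‖ ^ 2 ≤
      ∑ p : {s : Finset α // s.card = 2}, ∑ q : {s : Finset α // s.card = 2},
        (if Disjoint p.1 q.1 then inner ℝ (P p x) (P q x) else 0)) :
    (1 + c) * inner ℝ ((∑ p, P p) x) x ≤ ‖(∑ p, P p) x‖ ^ 2 := by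
  classical
  have hunion : ∀ p q : {s : Finset α // s.card = 2}, p ≠ q → 3 ≤ (p.1 ∪ q.1).card := by
    intro p q hpq
    by_contra hcon
    have h2 : (p.1 ∪ q.1).card ≤ 2 := by omega
    have hp : p.1 = p.1 ∪ q.1 :=
      Finset.eq_of_subset_of_card_le Finset.subset_union_left (by rw [p.2]; exact h2)
    have hq : q.1 = p.1 ∪ q.1 :=
      Finset.eq_of_subset_of_card_le Finset.subset_union_right (by rw [q.2]; exact h2)
    exact hpq (Subtype.ext (hp.trans hq.symm))
  -- disjointness is the same as being distinct and in no common triangle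
  have hdisj : ∀ p q : {s : Finset α // s.card = 2},
      (p ≠ q ∧ ∀ t : {t : Finset α // t.card = 3},
        ¬ (p ∈ univ.filter (fun p : {s : Finset α // s.card = 2} => p.1 ⊆ t.1) ∧
          q ∈ univ.filter (fun p : {s : Finset α // s.card = 2} => p.1 ⊆ t.1)))
        ↔ Disjoint p.1 q.1 := by
    intro p q
    constructor
    · rintro ⟨hpq, hno⟩
      rw [Finset.disjoint_iff_inter_eq_empty]
      by_contra hne
      have hpos : 1 ≤ (p.1 ∩ q.1).card := by
        rw [Nat.succ_le_iff, Finset.card_pos]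
        exact Finset.nonempty_iff_ne_empty.2 hne
      have hcard := Finset.card_union_add_card_inter p.1 q.1
      rw [p.2, q.2] at hcard
      have h3 : (p.1 ∪ q.1).card = 3 := by
        have := hunion p q hpq
        omega
      apply hno ⟨p.1 ∪ q.1, h3⟩
      rw [mem_filter, mem_filter]
      exact ⟨⟨mem_univ _, Finset.subset_union_left⟩, ⟨mem_univ _, Finset.subset_union_right⟩⟩
    · intro hd
      have hcard : (p.1 ∪ q.1).card = 4 := by
        rw [Finset.card_union_of_disjoint hd, p.2, q.2]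
      refine ⟨?_, ?_⟩
      · rintro rfl
        have h0 : p.1 = ∅ := by
          have := Finset.disjoint_self_iff_empty p.1
          exact this.1 hd
        have := p.2
        rw [h0] at this
        simp at this
      · rintro t ⟨h1, h2⟩
        rw [mem_filter] at h1 h2
        have hsub : p.1 ∪ q.1 ⊆ t.1 := Finset.union_subset h1.2 h2.2
        have := Finset.card_le_card hsub
        rw [hcard, t.2] at this
        omega
  apply knabe_inner_par P
    (fun t : {t : Finset α // t.card = 3} =>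
      univ.filter (fun p : {s : Finset α // s.card = 2} => p.1 ⊆ t.1)) hsym hidem
  · intro p q hpq
    rw [Finset.card_le_one]
    intro t ht t' ht'
    rw [mem_filter, mem_filter, mem_filter] at ht ht'
    have h1 : p.1 ∪ q.1 = t.1 :=
      Finset.eq_of_subset_of_card_le (Finset.union_subset ht.2.1.2 ht.2.2.2)
        (by rw [t.2]; exact hunion p q hpq)
    have h2 : p.1 ∪ q.1 = t'.1 :=
      Finset.eq_of_subset_of_card_le (Finset.union_subset ht'.2.1.2 ht'.2.2.2)
        (by rw [t'.2]; exact hunion p q hpq)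
    exact Subtype.ext (h1.symm.trans h2)
  · exact htri
  · refine hpar.trans (le_of_eq ?_)
    apply Finset.sum_congr rfl
    intro p _
    apply Finset.sum_congr rfl
    intro q _
    by_cases hd : Disjoint p.1 q.1
    · rw [if_pos hd, if_pos ((hdisj p q).2 hd)]
    · rw [if_neg hd, if_neg (fun h => hd ((hdisj p q).1 h))]

end Pairs

end Vale.Agent.Lib.P335.helper19
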