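import Mathlib

namespace Vale.Agent.Lib.P335.helper19

open Finset Matrix

variable {Ω : Type*} [Fintype Ω]

theorem dot_self_nonneg (v : Ω → ℝ) : 0 ≤ v ⬝ᵥ v := by
  unfold dotProduct
  exact Finset.sum_nonneg (fun i _ => mul_self_nonneg (v i))

/-- one step of a symmetric positive semidefinite matrix with Dirichlet gap `g` contracts the
`ℓ²` norm of a mean-zero vector by the factor `1 - g` -/
theorem l2_contract [DecidableEq Ω] (P : Matrix Ω Ω ℝ) (hsymm : P.IsSymm) (g : ℝ) (hg1 : g ≤ 1)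
    (hpsd : ∀ v : Ω → ℝ, 0 ≤ v ⬝ᵥ (P *ᵥ v))
    (hgap : ∀ v : Ω → ℝ, ∑ y, v y = 0 → v ⬝ᵥ (P *ᵥ v) ≤ (1 - g) * (v ⬝ᵥ v))
    (v : Ω → ℝ) (hv : ∑ y, v y = 0) (hPv : ∑ y, (P *ᵥ v) y = 0) :
    (P *ᵥ v) ⬝ᵥ (P *ᵥ v) ≤ (1 - g) ^ 2 * (v ⬝ᵥ v) := by
  set w := P *ᵥ v with hw
  have ha0 : 0 ≤ v ⬝ᵥ w := hpsd v
  have ha1 : v ⬝ᵥ w ≤ (1 - g) * (v ⬝ᵥ v) := hgap v hv
  have hc0 : 0 ≤ w ⬝ᵥ (P *ᵥ w) := hpsd w
  have hc1 : w ⬝ᵥ (P *ᵥ w) ≤ (1 - g) * (w ⬝ᵥ w) := hgap w hPv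
  have hb0 : 0 ≤ w ⬝ᵥ w := dot_self_nonneg w
  have hvv : 0 ≤ v ⬝ᵥ v := dot_self_nonneg v
  have hcs := LinearMap.BilinForm.apply_mul_apply_le_of_forall_zero_le (Matrix.toBilin' P)
    (fun u => by rw [Matrix.toBilin'_apply']; exact hpsd u) v w
  simp only [Matrix.toBilin'_apply'] at hcs
  have e1 : v ⬝ᵥ (P *ᵥ w) = w ⬝ᵥ w := by
    rw [Matrix.dotProduct_mulVec, ← Matrix.mulVec_transpose, hsymm.eq]
  have e2 : w ⬝ᵥ (P *ᵥ v) = w ⬝ᵥ w := rfl
  rw [e1, e2] at hcs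
  have h1g : 0 ≤ 1 - g := by linarith
  rcases eq_or_lt_of_le hb0 with hb | hb
  · rw [← hb]
    positivity
  · have h3 : w ⬝ᵥ w ≤ (1 - g) * (v ⬝ᵥ w) := by
      by_contra hcon
      rw [not_le] at hcon
      nlinarith
    nlinarith

/-- sum of the entries of `P *ᵥ v` for a symmetric matrix with unit row sums -/
theorem sum_mulVec_eq (P : Matrix Ω Ω ℝ) (hsymm : P.IsSymm) (hrow : ∀ x, ∑ y, P x y = 1)
    (v : Ω → ℝ) : ∑ y, (P *ᵥ v) y = ∑ y, v y := by
  unfold Matrix.mulVec dotProduct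
  rw [Finset.sum_comm]
  apply Finset.sum_congr rfl
  intro z _
  rw [← Finset.sum_mul]
  have h : ∑ y, P y z = 1 := by
    rw [← hrow z]
    apply Finset.sum_congr rfl
    intro y _
    exact hsymm.apply z y
  rw [h, one_mul]

/-- **Spectral gap gives mixing**: let `P` be a symmetric matrix with unit row sums on a finite
type `Ω` which is positive semidefinite and has Dirichlet gap `g` on mean-zero vectors. Then the
`ℓ¹` distance of any row of `P ^ t` from the uniform distribution is at most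
`sqrt |Ω| * (1 - g) ^ t`. -/
theorem l1_bound_of_gap [DecidableEq Ω] (P : Matrix Ω Ω ℝ) (hsymm : P.IsSymm) (hrow : ∀ x, ∑ y, P x y = 1)
    (g : ℝ) (hg1 : g ≤ 1)
    (hpsd : ∀ v : Ω → ℝ, 0 ≤ v ⬝ᵥ (P *ᵥ v))
    (hgap : ∀ v : Ω → ℝ, ∑ y, v y = 0 → v ⬝ᵥ (P *ᵥ v) ≤ (1 - g) * (v ⬝ᵥ v))
    (t : ℕ) (x : Ω) :
    ∑ y, |(P ^ t) x y - 1 / (Fintype.card Ω : ℝ)|
      ≤ Real.sqrt (Fintype.card Ω : ℝ) * (1 - g) ^ t := by
  have hNpos : (0 : ℝ) < (Fintype.card Ω : ℝ) := by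
    have : 0 < Fintype.card Ω := Fintype.card_pos_iff.2 ⟨x⟩
    exact_mod_cast this
  set c : ℝ := 1 / (Fintype.card Ω : ℝ) with hc
  have hc0 : 0 < c := by positivity
  have hNc : (Fintype.card Ω : ℝ) * c = 1 := by
    rw [hc]
    field_simp
  set w : ℕ → Ω → ℝ := fun t y => (P ^ t) x y - c with hw
  have h1g : 0 ≤ 1 - g := by linarith
  -- the recursion
  have hstep : ∀ t, w (t + 1) = P *ᵥ w t := by
    intro t
    funext y
    simp only [hw]
    rw [pow_succ, Matrix.mul_apply]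
    unfold Matrix.mulVec dotProduct
    have e : ∑ z, P y z * ((P ^ t) x z - c) = ∑ z, (P ^ t) x z * P z y - c * ∑ z, P y z := by
      rw [Finset.mul_sum, ← Finset.sum_sub_distrib]
      apply Finset.sum_congr rfl
      intro z _
      rw [hsymm.apply z y]
      ring
    rw [e, hrow y, mul_one]
  -- mean zero
  have hsum : ∀ t, ∑ y, w t y = 0 := by
    intro t
    induction t with
    | zero =>
      simp only [hw, pow_zero, Matrix.one_apply]
      rw [Finset.sum_sub_distrib, Finset.sum_ite_eq, Finset.sum_const, Finset.card_univ,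
        nsmul_eq_mul, hNc]
      simp
    | succ t ih =>
      rw [hstep t, sum_mulVec_eq P hsymm hrow, ih]
  -- norm bound
  have hnorm : ∀ t, w t ⬝ᵥ w t ≤ ((1 - g) ^ t) ^ 2 := by
    intro t
    induction t with
    | zero =>
      simp only [pow_zero, one_pow]
      unfold dotProduct
      simp only [hw, pow_zero, Matrix.one_apply]
      have e : ∀ y : Ω, ((if x = y then (1 : ℝ) else 0) - c) * ((if x = y then (1 : ℝ) else 0) - c)
          = (if x = y then (1 - 2 * c) else 0) + c * c := by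
        intro y
        by_cases hxy : x = y
        · simp only [hxy, if_true]
          ring
        · simp only [hxy, if_false]
          ring
      rw [Finset.sum_congr rfl (fun y _ => e y), Finset.sum_add_distrib, Finset.sum_ite_eq,
        Finset.sum_const, Finset.card_univ, nsmul_eq_mul, ← mul_assoc, hNc]
      simp only [mem_univ, if_true]
      linarith
    | succ t ih =>
      rw [hstep t]
      have h := l2_contract P hsymm g hg1 hpsd hgap (w t) (hsum t)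
        (by rw [← hstep t]; exact hsum (t + 1))
      have h2 : (1 - g) ^ 2 * (w t ⬝ᵥ w t) ≤ (1 - g) ^ 2 * ((1 - g) ^ t) ^ 2 :=
        mul_le_mul_of_nonneg_left ih (by positivity)
      calc P *ᵥ w t ⬝ᵥ P *ᵥ w t ≤ (1 - g) ^ 2 * (w t ⬝ᵥ w t) := h
        _ ≤ (1 - g) ^ 2 * ((1 - g) ^ t) ^ 2 := h2
        _ = ((1 - g) ^ (t + 1)) ^ 2 := by ring
  -- Cauchy-Schwarz
  have hcs : (∑ y, |w t y|) ^ 2 ≤ (Fintype.card Ω : ℝ) * ∑ y, |w t y| ^ 2 := by
    have := sq_sum_le_card_mul_sum_sq (s := (univ : Finset Ω)) (f := fun y => |w t y|)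
    rw [Finset.card_univ] at this
    exact this
  have hsq : ∑ y, |w t y| ^ 2 = w t ⬝ᵥ w t := by
    unfold dotProduct
    apply Finset.sum_congr rfl
    intro y _
    rw [sq_abs]
    ring
  have hfin : (∑ y, |w t y|) ^ 2 ≤ (Real.sqrt (Fintype.card Ω : ℝ) * (1 - g) ^ t) ^ 2 := by
    rw [mul_pow, Real.sq_sqrt hNpos.le]
    calc (∑ y, |w t y|) ^ 2 ≤ (Fintype.card Ω : ℝ) * ∑ y, |w t y| ^ 2 := hcs
      _ = (Fintype.card Ω : ℝ) * (w t ⬝ᵥ w t) := by rw [hsq]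
      _ ≤ (Fintype.card Ω : ℝ) * ((1 - g) ^ t) ^ 2 :=
          mul_le_mul_of_nonneg_left (hnorm t) hNpos.le
  have hl : 0 ≤ ∑ y, |w t y| := Finset.sum_nonneg (fun y _ => abs_nonneg _)
  have hr : 0 ≤ Real.sqrt (Fintype.card Ω : ℝ) * (1 - g) ^ t := by positivity
  exact (pow_le_pow_iff_left₀ hl hr (by norm_num)).1 hfin

/-- a symmetric matrix with nonnegative entries and unit row sums satisfies `-1 ≤ Q` -/
theorem dot_mulVec_ge_neg (Q : Matrix Ω Ω ℝ) (hsymm : Q.IsSymm) (hnn : ∀ x y, 0 ≤ Q x y)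
    (hrow : ∀ x, ∑ y, Q x y = 1) (v : Ω → ℝ) : -(v ⬝ᵥ v) ≤ v ⬝ᵥ (Q *ᵥ v) := by
  have h1 : v ⬝ᵥ (Q *ᵥ v) = ∑ x, ∑ y, Q x y * (v x * v y) := by
    unfold Matrix.mulVec dotProduct
    apply Finset.sum_congr rfl
    intro x _
    rw [Finset.mul_sum]
    apply Finset.sum_congr rfl
    intro y _
    ring
  have h2 : v ⬝ᵥ v = ∑ x, ∑ y, Q x y * (v x * v x) := by
    unfold dotProduct
    apply Finset.sum_congr rfl
    intro x _
    rw [← Finset.sum_mul, hrow x, one_mul]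
  have h3 : v ⬝ᵥ v = ∑ x, ∑ y, Q x y * (v y * v y) := by
    rw [Finset.sum_comm]
    unfold dotProduct
    apply Finset.sum_congr rfl
    intro y _
    rw [← Finset.sum_mul]
    have h : ∑ x, Q x y = 1 := by
      rw [← hrow y]
      apply Finset.sum_congr rfl
      intro x _
      exact hsymm.apply y x
    rw [h, one_mul]
  have h4 : 0 ≤ ∑ x, ∑ y, Q x y * ((v x + v y) * (v x + v y)) :=
    Finset.sum_nonneg (fun x _ => Finset.sum_nonneg (fun y _ =>
      mul_nonneg (hnn x y) (mul_self_nonneg _)))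
  have h5 : ∑ x, ∑ y, Q x y * ((v x + v y) * (v x + v y))
      = ∑ x, ∑ y, Q x y * (v x * v x) + ∑ x, ∑ y, Q x y * (v y * v y)
        + 2 * ∑ x, ∑ y, Q x y * (v x * v y) := by
    rw [Finset.mul_sum, ← Finset.sum_add_distrib, ← Finset.sum_add_distrib]
    apply Finset.sum_congr rfl
    intro x _
    rw [Finset.mul_sum, ← Finset.sum_add_distrib, ← Finset.sum_add_distrib]
    apply Finset.sum_congr rfl
    intro y _
    ring
  rw [h5, ← h2, ← h3, ← h1] at h4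
  linarith

/-- the lazy version `(1 + Q) / 2` of a symmetric stochastic matrix is positive semidefinite -/
theorem lazy_psd [DecidableEq Ω] (Q : Matrix Ω Ω ℝ) (hsymm : Q.IsSymm) (hnn : ∀ x y, 0 ≤ Q x y)
    (hrow : ∀ x, ∑ y, Q x y = 1) (v : Ω → ℝ) :
    0 ≤ v ⬝ᵥ (((1 / 2 : ℝ) • (1 + Q)) *ᵥ v) := by
  have h := dot_mulVec_ge_neg Q hsymm hnn hrow v
  rw [Matrix.smul_mulVec, dotProduct_smul, Matrix.add_mulVec, Matrix.one_mulVec,
    dotProduct_add, smul_eq_mul]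
  linarith

end Vale.Agent.Lib.P335.helper19
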