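import Mathlib
import Vale.Agent.Lib.P335.helper26.BipDefs

namespace Vale.Agent.Lib.P335.Bip

open Finset

namespace H19

section Cexp

variable {Ω K : Type*} [Fintype Ω] [DecidableEq K]

theorem cexp_apply (κ : Ω → K) (f : Ω → ℝ) (x : Ω) :
    cexp κ f x = (∑ y ∈ univ.filter (fun y => κ y = κ x), f y) /
      ((univ.filter (fun y => κ y = κ x)).card : ℝ) := rfl

theorem fib_eq (κ : Ω → K) {x y : Ω} (h : κ x = κ y) :
    univ.filter (fun z => κ z = κ x) = univ.filter (fun z => κ z = κ y) := by
  rw [h]

theorem card_fib_pos (κ : Ω → K) (x : Ω) :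
    0 < (univ.filter (fun y => κ y = κ x)).card := by
  rw [Finset.card_pos]
  exact ⟨x, by simp⟩

/-- double counting over the fibres -/
theorem sum_fib_swap (κ : Ω → K) (φ : Ω → ℝ) :
    ∑ x, ∑ y ∈ univ.filter (fun y => κ y = κ x), φ y
      = ∑ y, ((univ.filter (fun z => κ z = κ y)).card : ℝ) * φ y := by
  have h1 : ∀ x, ∑ y ∈ univ.filter (fun y => κ y = κ x), φ y
      = ∑ y, if κ y = κ x then φ y else 0 := by
    intro x
    rw [Finset.sum_filter]
  rw [Finset.sum_congr rfl (fun x _ => h1 x), Finset.sum_comm]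
  apply Finset.sum_congr rfl
  intro y _
  rw [← Finset.sum_filter, Finset.sum_const, nsmul_eq_mul]
  congr 3
  ext z
  simp only [mem_filter, mem_univ, true_and]
  exact eq_comm

/-- the conditional expectation is symmetric against functions constant on the fibres -/
theorem sum_mul_cexp (κ : Ω → K) (G F : Ω → ℝ) (hG : ∀ x y, κ x = κ y → G x = G y) :
    ∑ x, G x * cexp κ F x = ∑ x, G x * F x := by
  have h1 : ∀ x, G x * cexp κ F x
      = ∑ y ∈ univ.filter (fun y => κ y = κ x),
          (G y / ((univ.filter (fun z => κ z = κ y)).card : ℝ)) * F y := by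
    intro x
    rw [cexp_apply, mul_div_assoc', Finset.mul_sum, Finset.sum_div]
    apply Finset.sum_congr rfl
    intro y hy
    rw [mem_filter] at hy
    rw [hG y x hy.2, fib_eq κ hy.2]
    ring
  rw [Finset.sum_congr rfl (fun x _ => h1 x), sum_fib_swap]
  apply Finset.sum_congr rfl
  intro y _
  have hpos : (0 : ℝ) < ((univ.filter (fun z => κ z = κ y)).card : ℝ) := by
    exact_mod_cast card_fib_pos κ y
  field_simp

theorem cexp_congr (κ : Ω → K) (F : Ω → ℝ) {x y : Ω} (h : κ x = κ y) :
    cexp κ F x = cexp κ F y := by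
  rw [cexp_apply, cexp_apply, fib_eq κ h]

/-- A fibrewise Poincare inequality with constant `4`: the Dirichlet form of all pairs inside
the fibres of `κ` dominates four times the conditional variance. -/
theorem four_cexp_le (κ : Ω → K) (h : Ω → ℝ) :
    4 * (ip h h - ip h (cexp κ h))
      ≤ ∑ x, ∑ y, if κ y = κ x then (h x - h y) ^ 2 else 0 := by
  set a : Ω → ℝ := cexp κ h with ha
  set s : Ω → ℝ := fun x => ((univ.filter (fun z => κ z = κ x)).card : ℝ) with hs
  have hs1 : ∀ x, 1 ≤ s x := by
    intro x
    have := card_fib_pos κ x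
    simp only [hs]
    exact_mod_cast this
  have hsa : ∀ x, ∑ y ∈ univ.filter (fun y => κ y = κ x), h y = s x * a x := by
    intro x
    rw [ha, cexp_apply]
    have : s x ≠ 0 := by
      have := hs1 x
      linarith
    simp only [hs] at this ⊢
    field_simp
  -- the right-hand side
  have hR : ∑ x, ∑ y, (if κ y = κ x then (h x - h y) ^ 2 else 0)
      = 2 * ∑ x, s x * (h x * (h x - a x)) := by
    have e1 : ∀ x, ∑ y, (if κ y = κ x then (h x - h y) ^ 2 else 0)
        = s x * h x ^ 2 - 2 * h x * (s x * a x)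
          + ∑ y ∈ univ.filter (fun y => κ y = κ x), h y ^ 2 := by
      intro x
      rw [← Finset.sum_filter]
      have e2 : ∀ y ∈ univ.filter (fun y => κ y = κ x),
          (h x - h y) ^ 2 = h x ^ 2 - 2 * h x * h y + h y ^ 2 := by
        intro y _
        ring
      rw [Finset.sum_congr rfl e2, Finset.sum_add_distrib, Finset.sum_sub_distrib,
        Finset.sum_const, ← Finset.mul_sum, hsa x, nsmul_eq_mul]
    rw [Finset.sum_congr rfl (fun x _ => e1 x), Finset.sum_add_distrib,
      sum_fib_swap κ (fun y => h y ^ 2), Finset.mul_sum, ← Finset.sum_add_distrib]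
    apply Finset.sum_congr rfl
    intro x _
    ring
  -- orthogonality
  have horth : ∑ x, s x * a x * (h x - a x) = 0 := by
    have h1 := sum_mul_cexp κ (fun x => s x * a x) h (by
      intro x y hxy
      simp only [hs, ha]
      rw [fib_eq κ hxy, cexp_congr κ h hxy])
    have e : ∑ x, s x * a x * (h x - a x)
        = ∑ x, s x * a x * h x - ∑ x, s x * a x * cexp κ h x := by
      rw [← Finset.sum_sub_distrib]
      apply Finset.sum_congr rfl
      intro x _
      ring
    rw [e, h1, sub_self]
  have horth2 : ∑ x, a x * (h x - a x) = 0 := by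
    have h1 := sum_mul_cexp κ a h (by
      intro x y hxy
      exact cexp_congr κ h hxy)
    have e : ∑ x, a x * (h x - a x) = ∑ x, a x * h x - ∑ x, a x * cexp κ h x := by
      rw [← Finset.sum_sub_distrib]
      apply Finset.sum_congr rfl
      intro x _
      ring
    rw [e, h1, sub_self]
  have hL : ip h h - ip h (cexp κ h) = ∑ x, (h x - a x) ^ 2 := by
    unfold ip
    rw [← Finset.sum_sub_distrib]
    have e : ∑ x, (h x - a x) ^ 2 = ∑ x, (h x * h x - h x * a x) - ∑ x, a x * (h x - a x) := by
      rw [← Finset.sum_sub_distrib]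
      apply Finset.sum_congr rfl
      intro x _
      ring
    rw [e, horth2, sub_zero]
  have hR2 : 2 * ∑ x, s x * (h x * (h x - a x)) = ∑ x, 2 * (s x * (h x - a x) ^ 2) := by
    have e : ∑ x, 2 * (s x * (h x - a x) ^ 2)
        = 2 * ∑ x, s x * (h x * (h x - a x)) - 2 * ∑ x, s x * a x * (h x - a x) := by
      rw [Finset.mul_sum, Finset.mul_sum, ← Finset.sum_sub_distrib]
      apply Finset.sum_congr rfl
      intro x _
      ring
    rw [e, horth, mul_zero, sub_zero]
  rw [hR, hR2, hL, Finset.mul_sum]
  apply Finset.sum_le_sum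
  intro x _
  rcases eq_or_lt_of_le (hs1 x) with h1 | h1
  · -- a fibre with one element
    have hfib : univ.filter (fun y => κ y = κ x) = {x} := by
      have hc : (univ.filter (fun y => κ y = κ x)).card = 1 := by
        have : ((univ.filter (fun y => κ y = κ x)).card : ℝ) = 1 := h1.symm
        exact_mod_cast this
      obtain ⟨z, hz⟩ := Finset.card_eq_one.1 hc
      have hx : x ∈ univ.filter (fun y => κ y = κ x) := by simp
      rw [hz, mem_singleton] at hx
      rw [hz, hx]
    have hax : a x = h x := by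
      rw [ha, cexp_apply, hfib]
      simp
    rw [hax]
    simp
  · have h2 : 2 ≤ s x := by
      have hc : 1 < (univ.filter (fun z => κ z = κ x)).card := by
        simp only [hs] at h1
        exact_mod_cast h1
      have hc2 : 2 ≤ (univ.filter (fun z => κ z = κ x)).card := hc
      simp only [hs]
      exact_mod_cast hc2
    nlinarith [sq_nonneg (h x - a x)]

end Cexp

section Transpose

variable {m n : ℕ}

/-- the transpose of a 0/1 matrix given by its row supports -/
def tr (x : Mat m n) : Mat n m := fun j => univ.filter (fun i => j ∈ x i)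

theorem mem_tr (x : Mat m n) (i : Fin m) (j : Fin n) : i ∈ tr x j ↔ j ∈ x i := by
  simp [tr]

theorem tr_tr (x : Mat m n) : tr (tr x) = x := by
  funext i
  ext j
  rw [mem_tr, mem_tr]

theorem card_tr (x : Mat m n) (j : Fin n) : (tr x j).card = colSum x j := rfl

theorem colSum_tr (x : Mat m n) (i : Fin m) : colSum (tr x) i = (x i).card := by
  unfold colSum
  congr 1
  ext j
  simp [mem_tr]

/-- transposition as an equivalence of margin classes -/
def trEquiv (r : Fin m → ℕ) (c : Fin n → ℕ) : Om m n r c ≃ Om n m c r where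
  toFun x := ⟨tr x.1, fun j => by rw [card_tr]; exact x.2.2 j,
    fun i => by rw [colSum_tr]; exact x.2.1 i⟩
  invFun y := ⟨tr y.1, fun i => by rw [card_tr]; exact y.2.2 i,
    fun j => by rw [colSum_tr]; exact y.2.1 j⟩
  left_inv x := Subtype.ext (tr_tr x.1)
  right_inv y := Subtype.ext (tr_tr y.1)

theorem mem_swMat (x : Mat m n) (i i' : Fin m) (j j' : Fin n) (hi : i ≠ i') (k : Fin m)
    (l : Fin n) :
    l ∈ swMat x i i' j j' k ↔
      (if k = i' then (l = j ∨ (l ≠ j' ∧ l ∈ x i'))
        else if k = i then (l = j' ∨ (l ≠ j ∧ l ∈ x i)) else l ∈ x k) := by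
  unfold swMat
  by_cases h1 : k = i'
  · subst h1
    simp
  · by_cases h2 : k = i
    · subst h2
      simp [h1]
    · simp [h1, h2]

theorem tr_swMat (x : Mat m n) (i i' : Fin m) (j j' : Fin n) (hi : i ≠ i') (hj : j ≠ j') :
    tr (swMat x i i' j j') = swMat (tr x) j j' i i' := by
  funext l
  ext k
  rw [mem_tr, mem_swMat x i i' j j' hi, mem_swMat (tr x) j j' i i' hj]
  by_cases hk1 : k = i'
  · subst hk1
    by_cases hl1 : l = j'
    · subst hl1
      simp [hj.symm, hi.symm]
    · by_cases hl2 : l = j
      · subst hl2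
        simp [hl1]
      · simp [hl1, hl2, mem_tr]
  · by_cases hk2 : k = i
    · subst hk2
      by_cases hl1 : l = j'
      · subst hl1
        simp [hk1]
      · by_cases hl2 : l = j
        · subst hl2
          simp [hl1, hk1]
        · simp [hl1, hl2, hk1, mem_tr]
    · by_cases hl1 : l = j'
      · subst hl1
        simp [hk1, hk2, mem_tr]
      · by_cases hl2 : l = j
        · subst hl2
          simp [hl1, hk1, hk2, mem_tr]
        · simp [hl1, hl2, hk1, hk2, mem_tr]

theorem IsSwitch.transpose {x y : Mat m n} (h : IsSwitch x y) : IsSwitch (tr x) (tr y) := by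
  obtain ⟨i, i', j, j', -, -, hi, hj, h1, h2, h3, h4, rfl⟩ := h
  refine ⟨j, j', i, i', mem_univ _, mem_univ _, hj, hi, ?_, ?_, ?_, ?_,
    tr_swMat x i i' j j' hi hj⟩
  · rw [mem_tr]
    exact h1
  · rw [mem_tr]
    exact h4
  · rw [mem_tr]
    exact h3
  · rw [mem_tr]
    exact h2

end Transpose

section Variance

variable {m n : ℕ} {r : Fin m → ℕ} {c : Fin n → ℕ}

theorem R_univ_apply (f : Om m n r c → ℝ) (x : Om m n r c) :
    R univ f x = (∑ y, f y) / (Fintype.card (Om m n r c) : ℝ) := by
  unfold R
  rw [cexp_apply]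
  have hf : univ.filter (fun y : Om m n r c => mask univ y.1 = mask univ x.1) = univ := by
    ext y
    rw [mem_filter]
    refine ⟨fun _ => mem_univ _, fun _ => ⟨mem_univ _, ?_⟩⟩
    funext i
    simp [mask]
  rw [hf, Finset.card_univ]

theorem var_eq (f : Om m n r c → ℝ) :
    ip f f - ip f (R univ f)
      = ∑ x, f x ^ 2 - (∑ x, f x) ^ 2 / (Fintype.card (Om m n r c) : ℝ) := by
  unfold ip
  have h1 : ∑ x, f x * R univ f x = (∑ x, f x) ^ 2 / (Fintype.card (Om m n r c) : ℝ) := by
    simp only [R_univ_apply]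
    rw [← Finset.sum_mul]
    ring
  rw [h1]
  congr 1
  apply Finset.sum_congr rfl
  intro x _
  ring

end Variance

section TwoColumns

variable {n : ℕ}

/-- if two matrices agree outside the rows `j1`, `j2`, have equal sums in column `l`, and `l`
lies in row `j1` of the first but not of the second, then `l` lies in row `j2` of the second
but not of the first -/
theorem col_transfer {k : ℕ} (x y : Mat n k) (j1 j2 : Fin n) (l : Fin k)
    (hcol : colSum x l = colSum y l) (hout : ∀ i, i ≠ j1 → i ≠ j2 → y i = x i)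
    (h1 : l ∈ x j1) (h2 : l ∉ y j1) : l ∈ y j2 ∧ l ∉ x j2 := by
  by_contra hcon
  have hsub : univ.filter (fun i => l ∈ y i) ⊆ (univ.filter (fun i => l ∈ x i)).erase j1 := by
    intro i hi
    rw [mem_filter] at hi
    rw [mem_erase, mem_filter]
    have hij1 : i ≠ j1 := by
      rintro rfl
      exact h2 hi.2
    refine ⟨hij1, mem_univ _, ?_⟩
    by_cases hij2 : i = j2
    · subst hij2
      by_contra hx
      exact hcon ⟨hi.2, hx⟩
    · rw [← hout i hij1 hij2]
      exact hi.2
  have hmem : j1 ∈ univ.filter (fun i => l ∈ x i) := by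
    rw [mem_filter]
    exact ⟨mem_univ _, h1⟩
  have hlt := Finset.card_erase_lt_of_mem hmem
  have hle := Finset.card_le_card hsub
  unfold colSum at hcol
  omega

theorem isSwitchIn_core (x y : Mat n 2) (j1 j2 : Fin n) (h12 : j1 ≠ j2)
    (hcard : ∀ i, (x i).card = (y i).card) (hcol : ∀ l, colSum x l = colSum y l)
    (hout : ∀ i, i ≠ j1 → i ≠ j2 → y i = x i) (hne : x j1 ≠ y j1) :
    IsSwitchIn {j1, j2} x y := by
  have ha : ∃ a, a ∈ x j1 ∧ a ∉ y j1 := by
    by_contra hcon
    simp only [not_exists, not_and, not_not] at hcon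
    exact hne (Finset.eq_of_subset_of_card_le hcon (by rw [hcard j1]))
  have hb : ∃ b, b ∈ y j1 ∧ b ∉ x j1 := by
    by_contra hcon
    simp only [not_exists, not_and, not_not] at hcon
    exact hne (Finset.eq_of_subset_of_card_le hcon (by rw [hcard j1])).symm
  obtain ⟨a, ha1, ha2⟩ := ha
  obtain ⟨b, hb1, hb2⟩ := hb
  have hab : a ≠ b := by
    rintro rfl
    exact ha2 hb1
  have hall : ∀ e : Fin 2, e = a ∨ e = b := by
    intro e
    have h1 := e.2
    have h2 := a.2
    have h3 := b.2
    have h4 : (a : ℕ) ≠ (b : ℕ) := fun h => hab (Fin.ext h)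
    rcases Nat.lt_or_ge (e : ℕ) 1 with h5 | h5
    · rcases Nat.lt_or_ge (a : ℕ) 1 with h6 | h6
      · left
        apply Fin.ext
        omega
      · right
        apply Fin.ext
        omega
    · rcases Nat.lt_or_ge (a : ℕ) 1 with h6 | h6
      · right
        apply Fin.ext
        omega
      · left
        apply Fin.ext
        omega
  obtain ⟨ha3, ha4⟩ := col_transfer x y j1 j2 a (hcol a) hout ha1 ha2
  obtain ⟨hb3, hb4⟩ := col_transfer y x j1 j2 b (hcol b).symm
    (fun i h1 h2 => (hout i h1 h2).symm) hb1 hb2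
  refine ⟨j1, j2, a, b, by simp, by simp, h12, hab, ha1, hb2, hb3, ha4, ?_⟩
  funext i
  ext e
  rw [mem_swMat x j1 j2 a b h12]
  by_cases hi2 : i = j2
  · subst hi2
    rw [if_pos rfl]
    rcases hall e with rfl | rfl
    · simp [ha3]
    · simp [hb4, hab.symm]
  · rw [if_neg hi2]
    by_cases hi1 : i = j1
    · subst hi1
      rw [if_pos rfl]
      rcases hall e with rfl | rfl
      · simp [ha2, hab]
      · simp [hb1]
    · rw [if_neg hi1, hout i hi1 hi2]

/-- in a system with two columns, two distinct matrices that agree outside a pair of rows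
differ by a switch on that pair of rows -/
theorem isSwitchIn_of_mask_eq {r : Fin n → ℕ} {c : Fin 2 → ℕ} (q : Finset (Fin n))
    (hq : q.card = 2) (x y : Om n 2 r c) (hxy : x ≠ y) (hmask : mask q y.1 = mask q x.1) :
    IsSwitchIn q x.1 y.1 := by
  obtain ⟨j1, j2, h12, rfl⟩ := Finset.card_eq_two.1 hq
  have hout : ∀ i, i ≠ j1 → i ≠ j2 → y.1 i = x.1 i := by
    intro i h1 h2
    have h := congrFun hmask i
    simpa [mask, h1, h2] using h
  have hcard : ∀ i, (x.1 i).card = (y.1 i).card := fun i => by rw [x.2.1 i, y.2.1 i]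
  have hcol : ∀ l, colSum x.1 l = colSum y.1 l := fun l => by rw [x.2.2 l, y.2.2 l]
  have hne : x.1 ≠ y.1 := fun h => hxy (Subtype.ext h)
  obtain ⟨i, hi⟩ := Function.ne_iff.1 hne
  by_cases h1 : x.1 j1 ≠ y.1 j1
  · exact isSwitchIn_core x.1 y.1 j1 j2 h12 hcard hcol hout h1
  · rw [not_not] at h1
    have h2 : x.1 j2 ≠ y.1 j2 := by
      intro h2
      apply hi
      by_cases hi1 : i = j1
      · rw [hi1]
        exact h1
      · by_cases hi2 : i = j2
        · rw [hi2]
          exact h2
        · exact (hout i hi1 hi2).symm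
    have h := isSwitchIn_core x.1 y.1 j2 j1 h12.symm hcard hcol
      (fun i h1 h2 => hout i h2 h1) h2
    rw [Finset.pair_comm] at h
    exact h

end TwoColumns

section Unique

variable {m n : ℕ}

theorem isSwitchIn_eq_filter (q : Finset (Fin m)) (hq : q.card = 2) (x y : Mat m n)
    (h : IsSwitchIn q x y) : q = univ.filter (fun k => x k ≠ y k) := by
  obtain ⟨i, i', j, j', hi, hi', hii', hjj', h1, h2, h3, h4, rfl⟩ := h
  have hpair : ({i, i'} : Finset (Fin m)) = q := by
    apply Finset.eq_of_subset_of_card_le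
    · intro k hk
      rw [mem_insert, mem_singleton] at hk
      rcases hk with rfl | rfl
      · exact hi
      · exact hi'
    · rw [hq, Finset.card_pair hii']
  rw [← hpair]
  ext k
  rw [mem_insert, mem_singleton, mem_filter]
  constructor
  · rintro (rfl | rfl)
    · refine ⟨mem_univ _, fun heq => ?_⟩
      have hmem : j' ∈ swMat x k i' j j' k := by
        rw [mem_swMat x k i' j j' hii']
        simp [hii']
      rw [← heq] at hmem
      exact h2 hmem
    · refine ⟨mem_univ _, fun heq => ?_⟩
      have hmem : j ∈ swMat x i k j j' k := by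
        rw [mem_swMat x i k j j' hii']
        simp
      rw [← heq] at hmem
      exact h4 hmem
  · rintro ⟨-, hne⟩
    by_contra hcon
    rw [not_or] at hcon
    apply hne
    ext l
    rw [mem_swMat x i i' j j' hii']
    simp [hcon.1, hcon.2]

end Unique

end H19

section Main

open H19

open scoped Classical in
/-- **Johnson step by transposition**: given the row-pair heat-bath gap for all margin systems
(hypothesis `hgap`), the switch Dirichlet form of every system with two rows dominates four
times the variance. -/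
theorem twoRow_of_hgap
    (hgap : ∀ (m n : ℕ) (r : Fin m → ℕ) (c : Fin n → ℕ) (f : Om m n r c → ℝ),
      ip f f - ip f (R univ f)
        ≤ ∑ p ∈ (univ : Finset (Fin m)).powersetCard 2, (ip f f - ip f (R p f)))
    (n : ℕ) (r : Fin 2 → ℕ) (c : Fin n → ℕ) (g : Om 2 n r c → ℝ) :
    4 * (ip g g - ip g (R univ g))
      ≤ ∑ x, ∑ y, if IsSwitch x.1 y.1 then (g x - g y) ^ 2 else 0 := by
  set e : Om 2 n r c ≃ Om n 2 c r := trEquiv r c with he
  set h : Om n 2 c r → ℝ := fun x' => g (e.symm x') with hh
  -- the variance is transported by the transposition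
  have hvar : ip g g - ip g (R univ g) = ip h h - ip h (R univ h) := by
    rw [var_eq, var_eq]
    have h1 : ∑ x', h x' ^ 2 = ∑ x, g x ^ 2 := Equiv.sum_comp e.symm (fun x => g x ^ 2)
    have h2 : ∑ x', h x' = ∑ x, g x := Equiv.sum_comp e.symm g
    have h3 : Fintype.card (Om n 2 c r) = Fintype.card (Om 2 n r c) :=
      Fintype.card_congr e.symm
    rw [h1, h2, h3]
  have h2 := hgap n 2 c r h
  -- each row pair of the transposed system
  have h3 : ∀ q ∈ (univ : Finset (Fin n)).powersetCard 2,
      4 * (ip h h - ip h (R q h))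
        ≤ ∑ x : Om n 2 c r, ∑ y : Om n 2 c r,
            if IsSwitchIn q x.1 y.1 then (h x - h y) ^ 2 else 0 := by
    intro q hq
    rw [mem_powersetCard] at hq
    refine le_trans (four_cexp_le (fun x : Om n 2 c r => mask q x.1) h) ?_
    apply Finset.sum_le_sum
    intro x _
    apply Finset.sum_le_sum
    intro y _
    by_cases hxy : x = y
    · subst hxy
      simp
    · by_cases hm : mask q y.1 = mask q x.1
      · rw [if_pos hm, if_pos (isSwitchIn_of_mask_eq q hq.2 x y hxy hm)]
      · rw [if_neg hm]
        split_ifs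
        · positivity
        · exact le_refl 0
  -- summing over the row pairs
  have h4 : ∑ q ∈ (univ : Finset (Fin n)).powersetCard 2,
        ∑ x : Om n 2 c r, ∑ y : Om n 2 c r,
          (if IsSwitchIn q x.1 y.1 then (h x - h y) ^ 2 else 0)
      ≤ ∑ x : Om n 2 c r, ∑ y : Om n 2 c r,
          if IsSwitch x.1 y.1 then (h x - h y) ^ 2 else 0 := by
    rw [Finset.sum_comm]
    apply Finset.sum_le_sum
    intro x _
    rw [Finset.sum_comm]
    apply Finset.sum_le_sum
    intro y _
    by_cases hex : ∃ q ∈ (univ : Finset (Fin n)).powersetCard 2, IsSwitchIn q x.1 y.1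
    · obtain ⟨q0, hq0, hs0⟩ := hex
      have hsw : IsSwitch x.1 y.1 := by
        obtain ⟨i, i', j, j', -, -, rest⟩ := hs0
        exact ⟨i, i', j, j', mem_univ _, mem_univ _, rest⟩
      rw [if_pos hsw, Finset.sum_eq_single q0]
      · rw [if_pos hs0]
      · intro q hq hne
        rw [if_neg]
        intro hs
        apply hne
        rw [mem_powersetCard] at hq hq0
        rw [isSwitchIn_eq_filter q hq.2 x.1 y.1 hs, isSwitchIn_eq_filter q0 hq0.2 x.1 y.1 hs0]
      · intro hq
        exact absurd hq0 hq
    · rw [Finset.sum_eq_zero]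
      · split_ifs
        · positivity
        · exact le_refl 0
      · intro q hq
        rw [if_neg]
        intro hs
        exact hex ⟨q, hq, hs⟩
  -- back to the two-row system
  have h5 : ∑ x : Om n 2 c r, ∑ y : Om n 2 c r,
        (if IsSwitch x.1 y.1 then (h x - h y) ^ 2 else 0)
      ≤ ∑ x : Om 2 n r c, ∑ y : Om 2 n r c,
          if IsSwitch x.1 y.1 then (g x - g y) ^ 2 else 0 := by
    rw [← Equiv.sum_comp e (fun x' => ∑ y : Om n 2 c r,
      if IsSwitch x'.1 y.1 then (h x' - h y) ^ 2 else 0)]
    apply Finset.sum_le_sum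
    intro x _
    rw [← Equiv.sum_comp e (fun y' => if IsSwitch (e x).1 y'.1 then (h (e x) - h y') ^ 2 else 0)]
    apply Finset.sum_le_sum
    intro y _
    have hx : h (e x) = g x := by simp [hh]
    have hy : h (e y) = g y := by simp [hh]
    rw [hx, hy]
    by_cases hs : IsSwitch (e x).1 (e y).1
    · have hs' : IsSwitch x.1 y.1 := by
        have ht := IsSwitch.transpose hs
        have e1 : tr (e x).1 = x.1 := tr_tr x.1
        have e2 : tr (e y).1 = y.1 := tr_tr y.1
        rw [e1, e2] at ht
        exact ht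
      rw [if_pos hs, if_pos hs']
    · rw [if_neg hs]
      split_ifs
      · positivity
      · exact le_refl 0
  calc 4 * (ip g g - ip g (R univ g)) = 4 * (ip h h - ip h (R univ h)) := by rw [hvar]
    _ ≤ 4 * ∑ p ∈ (univ : Finset (Fin n)).powersetCard 2, (ip h h - ip h (R p h)) := by
        linarith
    _ = ∑ p ∈ (univ : Finset (Fin n)).powersetCard 2, 4 * (ip h h - ip h (R p h)) := by
        rw [Finset.mul_sum]
    _ ≤ ∑ q ∈ (univ : Finset (Fin n)).powersetCard 2,
          ∑ x : Om n 2 c r, ∑ y : Om n 2 c r,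
            (if IsSwitchIn q x.1 y.1 then (h x - h y) ^ 2 else 0) := Finset.sum_le_sum h3
    _ ≤ ∑ x : Om n 2 c r, ∑ y : Om n 2 c r,
          (if IsSwitch x.1 y.1 then (h x - h y) ^ 2 else 0) := h4
    _ ≤ ∑ x : Om 2 n r c, ∑ y : Om 2 n r c,
          if IsSwitch x.1 y.1 then (g x - g y) ^ 2 else 0 := h5

end Main

end Vale.Agent.Lib.P335.Bip
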